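import Vale.Agent.P355.H41.F1.Wd

/-! Concatenation of digits; trees of moves. -/

namespace Vale.Agent.P355.H41.F1

open Vale.Agent.P355 H147 H998.E

/-- the number with digits `l` (`w` bits each, least significant first). -/
def cat (w : ℕ) (l : List ℕ) : ℕ :=
  List.rec (motive := fun _ => ℕ) 0 (fun c _ ih => Nat.add (Nat.shiftLeft ih w) c) l

theorem all_nd {n w mk : ℕ} {p : ℕ → Bool} {a b : TT} (ha : a.allX n w mk p = true)
    (hb : b.allX n w mk p = true) : (TT.nd a b).allX n w mk p = true := by
  show (a.allX n w mk p && b.allX n w mk p) = true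
  rw [ha, hb]; rfl

end Vale.Agent.P355.H41.F1
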