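import Vale.Agent.P355.H693.GFin
import Vale.Agent.P355.H147.KBr

/-! Sums of rows and small remainders in the final bookkeeping. -/

namespace Vale.Agent.P355.H41.F1

open Finset Matrix Vale.Agent.P355 H147 H693

variable {g : ℕ → ℝ} {m c : ℕ}

theorem evL_app0 {ct : GT} {L L' : List (ℕ × ℕ)} (h : evL g ct L = 0) (h' : evL g ct L' = 0) :
    evL g ct (L ++ L') = 0 := by
  unfold evL at *
  rw [List.map_append, List.sum_append, h, h', add_zero]

/-- sum of the absolute values of the coefficients. -/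
def l1T (l : List (ℤ × ℕ)) : ℕ :=
  List.rec (motive := fun _ => ℕ) 0 (fun p _ ih => Nat.add p.1.natAbs ih) l

/-- **A small remainder**: `-5 ‖l‖₁ ≤ 2 l`. -/
theorem rem_T {B : Fin m → M6} (hB : IsMUBs B) (hcm : c ≤ m) {ct : GT} {T0 E : ℕ}
    (h0 : tck 8 c (tabG ct) 0 (fun _ => 0) (fun _ _ => 96) T0 = true) (l : List (ℤ × ℕ))
    (hE : Nat.ble (l1T l) E = true) :
    0 ≤ valT (cv B 8 c) ct (sclT 2 l ++ [((5 : ℤ) * (E : ℤ), T0)]) := by
  have key : ∀ l : List (ℤ × ℕ), |valT (cv B 8 c) ct l| ≤ (5 / 2) * (l1T l : ℝ) := by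
    intro l
    induction l with
    | nil => simp [valT, l1T]
    | cons p l ih =>
      have e : l1T (p :: l) = p.1.natAbs + l1T l := rfl
      rw [valT_cons, e]
      have h1 := abs_cv_le hB 8 c (tabG ct (tId p.2))
      have h2 : |(p.1 : ℝ)| = (p.1.natAbs : ℝ) := by
        rw [← Int.cast_abs, Int.abs_eq_natAbs]; simp
      calc |(p.1 : ℝ) * cv B 8 c (tabG ct (tId p.2)) + valT (cv B 8 c) ct l|
          ≤ |(p.1 : ℝ) * cv B 8 c (tabG ct (tId p.2))| + |valT (cv B 8 c) ct l| := abs_add_le _ _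
        _ ≤ (p.1.natAbs : ℝ) * (5 / 2) + (5 / 2) * (l1T l : ℝ) := by
            rw [abs_mul, h2]
            gcongr
        _ = _ := by push_cast; ring
  have h7 : cv B 8 c (tabG ct (tId T0)) = 1 := empty_key hB hcm h0
  have h8 : valT (cv B 8 c) ct [] = 0 := rfl
  have hE' : (l1T l : ℝ) ≤ E := by exact_mod_cast Nat.le_of_ble_eq_true hE
  have h9 := abs_le.1 (key l)
  rw [valT_append, valT_scl, valT_cons, h7, h8]
  push_cast
  nlinarith [h9.1]

end Vale.Agent.P355.H41.F1
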