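import Vale.Agent.P355.H41.F1.Cat

/-! Checks of parts of a column. -/

namespace Vale.Agent.P355.H41.F1

open Finset Matrix Vale.Agent.P355 H147 H998.E
open Vale.Agent.P355.H129 (force force_eq)

variable {m c k l : ℕ} {B : Fin m → M6}

/-- the first `n` entries. -/
def tkL {α : Type} (n : ℕ) : List α → List α :=
  Nat.rec (motive := fun _ => List α → List α) (fun _ => [])
    (fun _ ih xs => List.rec (motive := fun _ => List α) [] (fun x xs' _ => x :: ih xs') xs) n

theorem tkL_eq {α : Type} : ∀ (n : ℕ) (xs : List α), tkL n xs = xs.take n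
  | 0, xs => by simp [tkL]
  | n + 1, [] => by
    have : tkL (n + 1) ([] : List α) = [] := rfl
    rw [this]; simp
  | n + 1, x :: xs => by
    have : tkL (n + 1) (x :: xs) = x :: tkL n xs := rfl
    rw [this, tkL_eq n xs, List.take_succ_cons]

/-- column `l`, rows `i0 ≤ i < i0 + cnt`. -/
def rngW (c TT : ℕ) (cls mv : ℕ → ℕ) (rw n kk kl : ℕ) (es : List GD) (XL : List PF)
    (EL : List ℕ) (l i0 cnt : ℕ) : Bool :=
  List.rec (motive := fun _ => Bool) false
    (fun y _ _ => imF kl y es fun IM =>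
      force (Nat.mul (Nat.mul rw n) l) fun W =>
      force (Nat.sub (Nat.pow 2 (Nat.mul rw n)) 1) fun W' =>
      force (Nat.sub (Nat.pow 2 rw) 1) fun mk => force y.b fun b =>
      colRW c TT cls mv rw mk kk kl W W' b IM (tkL cnt (drp i0 XL)) (drp i0 EL)) (drp l XL)

theorem rngW_spec {c TT : ℕ} {cls mv : ℕ → ℕ} {w n kk kl : ℕ} {es : List GD}
    {XL : List PF} {EL : List ℕ} {l i0 cnt : ℕ}
    (h : rngW c TT cls mv w n kk kl es XL EL l i0 cnt = true) (i : ℕ) (h1 : i0 ≤ i)
    (h2 : i < i0 + cnt) (h3 : i < XL.length) (j : ℕ) (hj : j < es.length) :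
    rcdW c TT cls mv (Nat.add (XL.getD i pf0).b (XL.getD l pf0).b) kl
      (mkK (eL es[j] (XL.getD l pf0) kl) (XL.getD i pf0).pt kk)
      (Nat.add (XL.getD i pf0).F (img es[j] (XL.getD l pf0)))
      (fld w ((EL.getD i 0) >>> (w * n * l) % 2 ^ (w * n)) j) = true := by
  unfold rngW at h
  rw [drp_eq, drp_eq, drp_eq, tkL_eq] at h
  have hy : ∀ y ys, XL.drop l = y :: ys → XL.getD l pf0 = y := by
    intro y ys hd
    have := getD_drop XL l 0 pf0
    rw [hd] at this
    simpa using this.symm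
  rcases hd : XL.drop l with _ | ⟨y, ys⟩
  · rw [hd] at h; exact absurd h (by simp)
  rw [hd] at h
  rw [hy y ys hd]
  simp only [force_eq, imF_eq] at h
  have hlen : i - i0 < ((XL.drop i0).take cnt).length := by
    rw [List.length_take, List.length_drop]; omega
  have h4 := colRW_spec h (i - i0) hlen
  have e0 : ((XL.drop i0).take cnt).getD (i - i0) pf0 = XL.getD i pf0 := by
    rw [List.getD_eq_getElem?_getD, List.getElem?_take_of_lt (by omega), List.getElem?_drop,
      List.getD_eq_getElem?_getD]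
    congr 2; omega
  have e1 : (EL.drop i0).getD (i - i0) 0 = EL.getD i 0 := by
    rw [getD_drop]; congr 1; omega
  rw [e0, e1] at h4
  have hmk : Nat.sub (Nat.pow 2 w) 1 = 2 ^ w - 1 := rfl
  have h5 := grpW_spec hmk h4 j (by simpa using hj)
  have e2 : ((es.map fun e => (img e y, eL e y kl)).getD j (0, []))
      = (img es[j] y, eL es[j] y kl) := by
    simp [List.getD_eq_getElem?_getD, hj]
  rw [e2] at h5
  have e3 : Nat.land (Nat.shiftRight (EL.getD i 0) (Nat.mul (Nat.mul w n) l))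
      (Nat.sub (Nat.pow 2 (Nat.mul w n)) 1)
      = (EL.getD i 0) >>> (w * n * l) % 2 ^ (w * n) :=
    Nat.and_two_pow_sub_one_eq_mod _ _
  rw [e3] at h5
  dsimp only at h5
  exact h5

/-- the rows `a ≤ i < b` of the column `l'` are checked. -/
def RW (c k l : ℕ) (D : ED) (cls mv : ℕ → ℕ) (l' a b : ℕ) : Prop :=
  ∀ i, a ≤ i → i < b → i < D.XL.length → ∀ j (hj : j < D.G.gl.length),
    rcdW c D.TT cls mv (Nat.add (D.XL.getD i pf0).b (D.XL.getD l' pf0).b) (k + l)
      (mkK (eL D.G.gl[j] (D.XL.getD l' pf0) (k + l)) (D.XL.getD i pf0).pt k)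
      (Nat.add (D.XL.getD i pf0).F (img D.G.gl[j] (D.XL.getD l' pf0)))
      (fld D.rw ((D.EL.getD i 0) >>> (D.rw * D.G.n * l') % 2 ^ (D.rw * D.G.n)) j) = true

theorem RW.ck {D : ED} {cls mv : ℕ → ℕ} (l' i0 cnt : ℕ)
    (h : rngW c D.TT cls mv D.rw D.G.n k (Nat.add k l) D.G.gl D.XL D.EL l' i0 cnt = true) :
    RW c k l D cls mv l' i0 (Nat.add i0 cnt) :=
  fun i h1 h2 h3 j hj => rngW_spec h i h1 h2 h3 j hj

theorem RW.trans {D : ED} {cls mv : ℕ → ℕ} {l' a b d : ℕ} (h : RW c k l D cls mv l' a b)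
    (h' : RW c k l D cls mv l' b d) : RW c k l D cls mv l' a d := by
  intro i h1 h2
  rcases Nat.lt_or_ge i b with h3 | h3
  · exact h i h1 h3
  · exact h' i h3 h2

/-- the columns `a ≤ l' < b` are checked. -/
def CR (c k l : ℕ) (D : ED) (cls mv : ℕ → ℕ) (nk a b : ℕ) : Prop :=
  ∀ l', a ≤ l' → l' < b → RW c k l D cls mv l' l' nk

theorem CR.one {D : ED} {cls mv : ℕ → ℕ} {nk : ℕ} (l' : ℕ) (h : RW c k l D cls mv l' l' nk) :
    CR c k l D cls mv nk l' (Nat.succ l') := by
  intro l1 h1 h2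
  have : l1 = l' := by omega
  rw [this]; exact h

theorem CR.trans {D : ED} {cls mv : ℕ → ℕ} {nk a b d : ℕ} (h : CR c k l D cls mv nk a b)
    (h' : CR c k l D cls mv nk b d) : CR c k l D cls mv nk a d := by
  intro l' h1 h2
  rcases Nat.lt_or_ge l' b with h3 | h3
  · exact h l' h1 h3
  · exact h' l' h3 h2

/-- **The records give the values of all products.** -/
theorem sokR [NeZero c] (hB : IsMUBs B) (hc : c ≤ 7) {D : ED} {cls mv : ℕ → ℕ}
    (hmv : ∀ i, mvOKw c (mv i) = true) (hck : D.ck c k l = true)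
    {nk : ℕ} (hnk : D.XL.length = nk) (hR : CR c k l D cls mv nk 0 nk) :
    SOk D.G.n nk (D.G.act c k l) D.G.nu ((D.T.ty c).M B)
      (fun i => (D.XL.getD i pf0).dec c k l) ((6 : ℝ) ^ D.TT) (RcE D.TT D.rw)
      (fun i => cvB B c (cls i)) D.BP D.EL := by
  obtain ⟨hT', hG, hx, hn, hb⟩ := ED.ck_spec hck
  have hT := TyD.ok_spec hT'
  have he := (GG.ck_spec hG).2.1
  have key : ∀ i < nk, ∀ l' ≤ i, ∀ j < D.G.n,
      (6 : ℝ) ^ D.TT * (sb (bP D.BP i) * sb (bP D.BP l') * (D.T.ty c).M B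
        ((D.XL.getD i pf0).dec c k l) (D.G.act c k l j ((D.XL.getD l' pf0).dec c k l)))
      = (mmu (bP D.BP i) (bP D.BP l') : ℝ) * (RcE D.TT D.rw).fm
          (fld D.rw ((D.EL.getD i 0) >>> (D.rw * D.G.n * l') % 2 ^ (D.rw * D.G.n)) j)
        * cvB B c (cls ((RcE D.TT D.rw).fi
          (fld D.rw ((D.EL.getD i 0) >>> (D.rw * D.G.n * l') % 2 ^ (D.rw * D.G.n)) j))) := by
    intro i hi l' hl' j hj
    have hj' : j < D.G.gl.length := by rw [hn]; exact hj
    have h4 := hR l' (by omega) (by omega) i hl' hi (by omega) j hj'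
    have e1 : D.G.gl[j] = D.G.g j := by
      rw [GG.g_eq]; simp [List.getD_eq_getElem?_getD, hj']
    rw [e1] at h4
    rw [← hb i (by omega), ← hb l' (by omega)]
    exact prod_soundW hB hc hmv hT (he j hj) (hx i (by omega)) (hx l' (by omega)) h4
  refine lty_sok hB hT' hG (by positivity) ?_ ?_
  · intro i hi l' hl' j hj
    exact key i hi l' hl'.le j hj
  · intro i hi j hj
    have h1 := key i hi i le_rfl j hj
    have e1 : fld D.rw ((D.EL.getD i 0) >>> (D.rw * D.G.n * i) % 2 ^ (D.rw * D.G.n)) j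
        = fld (RcE D.TT D.rw).rw (eKK (RcE D.TT D.rw) D.G.n (D.EL.getD i 0) i) j := by
      have e2 : (RcE D.TT D.rw).rw = D.rw := rfl
      unfold eKK
      rw [e2]
      generalize (D.EL.getD i 0) >>> (D.rw * D.G.n * i) = E
      show ((E % 2 ^ (D.rw * D.G.n)) >>> (D.rw * j)) % 2 ^ D.rw
        = (E >>> (D.rw * j)) % 2 ^ D.rw
      apply Nat.eq_of_testBit_eq
      intro b
      rw [Nat.testBit_mod_two_pow, Nat.testBit_mod_two_pow, Nat.testBit_shiftRight,
        Nat.testBit_shiftRight, Nat.testBit_mod_two_pow]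
      by_cases hb' : b < D.rw
      · have : D.rw * j + b < D.rw * D.G.n := by
          have h5 : D.rw * (j + 1) ≤ D.rw * D.G.n := Nat.mul_le_mul_left _ hj
          rw [Nat.mul_succ] at h5
          omega
        simp [hb', this]
      · simp [hb']
    rw [← e1]
    exact h1

end Vale.Agent.P355.H41.F1
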