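import Vale.Agent.P355.H147.LR

/-! Runs with factor blocks, records masked before they are read (less memory). -/

namespace Vale.Agent.P355.H41.F1

open Finset Vale.Agent.P355 Vale.Agent.P355.H147
open Vale.Agent.P355.H998.E (RcE)
open Vale.Agent.P355.H129 (force force_eq)

/-- row `k`, fast, masked records. -/
def accKm (β rw mβ Ws TT n nrw mE BP w mw C C' : ℕ) (TS TS' : List (ℕ × List ℕ)) (k E : ℕ)
    (Rs : List ℕ) (acc : ℕ) : ℕ :=
  force (Nat.mod (Nat.shiftRight BP k) 2) fun bk =>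
    force (Nat.rec (motive := fun _ => ℕ → ℕ) (fun a => a)
      (fun l ih a => force (Nat.land (Nat.shiftRight E (Nat.mul nrw l)) mE) fun E' =>
        force (Nat.succ (accGf β rw mβ Ws TT
        (mmu bk (Nat.mod (Nat.shiftRight BP l) 2)) n (zXf w mw l C TS Rs) E' a)) ih) k acc)
      fun acc' => force (Nat.land (Nat.shiftRight E (Nat.mul nrw k)) mE) fun E' =>
        Nat.succ (accGf β rw mβ Ws TT (mmu bk bk) n (zXf w mw k C' TS' Rs) E' acc')

theorem accKm_eq {β rw mβ Ws TT n BP w mw C C' k E acc : ℕ} {TS TS' : List (ℕ × List ℕ)}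
    {Rs : List ℕ} (hβ : mβ = 2 ^ β - 1) (hrw : 19 ≤ rw) :
    accKm β rw mβ Ws TT n (rw * n) (2 ^ (rw * n) - 1) BP w mw C C' TS TS' k E Rs acc
      = accKg β rw mβ Ws TT n (rw * n) BP w mw C C' TS TS' k E Rs acc := by
  have step : ∀ (μ Z l a : ℕ), accGf β rw mβ Ws TT μ n Z
        (Nat.land (Nat.shiftRight E (Nat.mul (rw * n) l)) (2 ^ (rw * n) - 1)) a
      = accGf β rw mβ Ws TT μ n Z (Nat.shiftRight E (Nat.mul (rw * n) l)) a := by
    intro μ Z l a
    have e : Nat.land (Nat.shiftRight E (Nat.mul (rw * n) l)) (2 ^ (rw * n) - 1)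
        = (Nat.shiftRight E (Nat.mul (rw * n) l)) % 2 ^ (rw * n) :=
      Nat.and_two_pow_sub_one_eq_mod _ _
    rw [e, accGf_mask hβ hrw]
  unfold accKm accKg
  simp only [force_eq, step]

/-- the row `k`, rows computed. -/
def rowM (β rw mβ Ws TT n nrw mE BP w mw o C C' : ℕ) (TS TS' : List (ℕ × List ℕ))
    (fs : List LB) (EL : List ℕ) (k acc : ℕ) : ℕ :=
  forceL (rowsLX mw w o k fs) fun Rs => force (nthL EL k) fun E =>
    accKm β rw mβ Ws TT n nrw mE BP w mw C C' TS TS' k E Rs acc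

/-- `num` rows starting with `k`. -/
def runM (β rw mβ Ws TT n nrw mE BP w mw o C C' : ℕ) (TS TS' : List (ℕ × List ℕ))
    (fs : List LB) (EL : List ℕ) (num : ℕ) : ℕ → ℕ → ℕ :=
  Nat.rec (motive := fun _ => ℕ → ℕ → ℕ) (fun _ acc => acc)
    (fun _ ih k acc => force (rowM β rw mβ Ws TT n nrw mE BP w mw o C C' TS TS' fs EL k acc)
      fun a => force (Nat.succ k) fun k' => ih k' a) num

theorem runM_eq {β rw mβ Ws TT n BP w mw o C C' : ℕ} {TS TS' : List (ℕ × List ℕ)}
    {fs : List LB} {EL : List ℕ} (hβ : mβ = 2 ^ β - 1) (hrw : 19 ≤ rw) :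
    ∀ (num k acc : ℕ),
    runM β rw mβ Ws TT n (rw * n) (2 ^ (rw * n) - 1) BP w mw o C C' TS TS' fs EL num k acc
      = H147.runL β rw mβ Ws TT n (rw * n) BP w mw o C C' TS TS' fs EL num k acc
  | 0, k, acc => rfl
  | num + 1, k, acc => by
    have e1 : runM β rw mβ Ws TT n (rw * n) (2 ^ (rw * n) - 1) BP w mw o C C' TS TS' fs EL
        (num + 1) k acc
        = force (rowM β rw mβ Ws TT n (rw * n) (2 ^ (rw * n) - 1) BP w mw o C C' TS TS' fs EL
          k acc) fun x => force (k + 1) fun k' =>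
          runM β rw mβ Ws TT n (rw * n) (2 ^ (rw * n) - 1) BP w mw o C C' TS TS' fs EL num
            k' x := rfl
    have e2 : H147.runL β rw mβ Ws TT n (rw * n) BP w mw o C C' TS TS' fs EL (num + 1) k acc
        = force (rowL β rw mβ Ws TT n (rw * n) BP w mw o C C' TS TS' fs EL k acc) fun x =>
          force (k + 1) fun k' =>
          H147.runL β rw mβ Ws TT n (rw * n) BP w mw o C C' TS TS' fs EL num k' x := rfl
    have e3 : rowM β rw mβ Ws TT n (rw * n) (2 ^ (rw * n) - 1) BP w mw o C C' TS TS' fs EL k acc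
        = rowL β rw mβ Ws TT n (rw * n) BP w mw o C C' TS TS' fs EL k acc := by
      unfold rowM rowL
      simp only [accKm_eq hβ hrw]
    rw [e1, e2, force_eq, force_eq, force_eq, force_eq, e3]
    exact runM_eq hβ hrw num _ _

/-- the parameters are forced once. -/
def runMt (t : TyE) (TT rw o : ℕ) (fs : List LB) (s : Bool) (num a X : ℕ) : ℕ :=
  force (Nat.sub (Nat.pow 2 t.β) 1) fun mβ => force (Nat.sub (Nat.pow 2 t.w) 1) fun mw =>
  force (Nat.mul rw t.n) fun nrw => force (Nat.sub (Nat.pow 2 nrw) 1) fun mE =>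
  force t.β fun β => force t.Ws fun Ws => force t.n fun n =>
  force t.BP fun BP => force t.w fun w =>
  force (cstX t.oU (mkTL (fun b => cond s b.Tn b.Tp) fs)) fun C =>
  force (cstX t.oU (mkTL (fun b => cond s b.Sn b.Sp) fs)) fun C' =>
  forceT (mkTL (fun b => cond s b.Tp b.Tn) fs) fun TS =>
  forceT (mkTL (fun b => cond s b.Sp b.Sn) fs) fun TS' =>
  runM β rw mβ Ws TT n nrw mE BP w mw o C C' TS TS' fs t.EL num a X

theorem runMt_eq {t : TyE} {TT rw o : ℕ} {fs : List LB} (hrw : 19 ≤ rw) (s : Bool)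
    (num a X : ℕ) : runMt t TT rw o fs s num a X = t.runL TT rw o fs s num a X := by
  unfold runMt TyE.runL
  simp only [forceT_eq, force_eq]
  exact runM_eq rfl hrw num a X

/-- a checked chunk, blocks given by factors, masked records. -/
theorem Ch_ckM {t : TyE} {ν : ℕ → ℕ → ℕ} {nk : ℕ} (ht : t.Ok ν nk) {TT rw o : ℕ}
    {fs : List LB} (hf : t.bs = fs.map (LB.toBD t.w o nk))
    (hR : t.R = RcE TT rw) (hrw : Nat.ble 19 rw = true) (s : Bool)
    (num a b X X' : ℕ)
    (h : and (Nat.beq (Nat.add a num) b) (and (Nat.ble b nk)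
      (Nat.beq (runMt t TT rw o fs s num a X) X')) = true) : Ch t s a b X X' := by
  rw [runMt_eq (Nat.le_of_ble_eq_true hrw)] at h
  exact Ch.ckL ht hf hR hrw s num a b X X' h

end Vale.Agent.P355.H41.F1
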