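import Vale.Agent.P355.H998.E.Fl

/-! Records of products with up to six legs: number of steps (4 bits), kinds of the leg steps
(12 bits), colours (`4 c` bits), placement (32 bits), steps (11 bits each). -/

namespace Vale.Agent.P355.H41.F1

open Finset Matrix Vale.Agent.P355 H147 H998.E
open Vale.Agent.P355.H693 (net w2c re_rec pwp net_addE net_mrg)
open Vale.Agent.P355.H129 (force force_eq)

variable {m c k l : ℕ} {B : Fin m → M6}

/-- colours of a move. -/
def mTw (M : ℕ) : ℕ := Nat.shiftLeft (Nat.shiftRight M 16) 4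
/-- placement of a move. -/
def mQw (c M : ℕ) : ℕ := Nat.shiftRight M (Nat.add 16 (Nat.mul 4 c))
/-- steps of a move. -/
def mSw (c M : ℕ) : ℕ := Nat.shiftRight M (Nat.add 48 (Nat.mul 4 c))

/-- check of a move. -/
def mvOKw (c M : ℕ) : Bool := and (isp 8 (mQw c M)) (ckT c (mTw M))

/-- a record. -/
def rcdW (c TT : ℕ) (cls mv : ℕ → ℕ) (par nl : ℕ) (K : List (ℕ × ℕ)) (X r : ℕ) : Bool :=
  (fun M : ℕ => lgsX nl K (Nat.shiftRight M (nat_lit 4)) X 0 fun X1 W1 => scrX (Nat.land M
    (nat_lit 15)) (Nat.shiftRight M (Nat.add (nat_lit 48) (Nat.mul (nat_lit 4) c))) X1 W1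
    fun X2 W2 =>
    rvX' (Nat.land (Nat.shiftRight r (nat_lit 19)) (nat_lit 1)) X2 fun X3 => finX par TT (cls
      (Nat.land r (nat_lit 65535))) (Nat.land (Nat.shiftRight r (nat_lit 16)) (nat_lit 7))
      (Nat.shiftLeft (Nat.shiftRight M (nat_lit 16)) (nat_lit 4)) (Nat.shiftRight M (Nat.add
      (nat_lit 16) (Nat.mul (nat_lit 4) c))) X3 W2) (mv (Nat.shiftRight r (nat_lit 20)))

theorem rcdW_sound (hB : IsMUBs B) (hc : c ≤ 7) {T : ℕ} {cls mv : ℕ → ℕ}
    (hmv : ∀ i, mvOKw c (mv i) = true) {a b nl : ℕ} (ha : a = 0 ∨ a = 1) (hb : b = 0 ∨ b = 1)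
    {K : List (ℕ × ℕ)} {X r : ℕ} (hK : K8 K)
    {col : Fin 8 → Option (Fin c)} {lab : Fin 8 → Bool} {f : Fin 8 → Fin 8 → ℤ}
    (h : Rpr c X col lab f) (hr : rcdW c T cls mv (a + b) nl K X r = true) :
    (6 : ℝ) ^ T * (pwp a * pwp b * (gve B col lab f (kf K)).re)
      = (mmb2 a b : ℝ) * ((6 ^ (T - Nat.land (Nat.shiftRight r 16) 7) : ℕ) : ℝ)
        * cvB B c (cls (Nat.land r 65535)) := by
  set M := mv (Nat.shiftRight r 20) with hM
  have hr' : lgsX nl K (Nat.shiftRight M 4) X 0 (fun X1 W1 =>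
      scrX (Nat.land M 15) (mSw c M) X1 W1 fun X2 W2 =>
      rvX' (Nat.land (Nat.shiftRight r 19) 1) X2 fun X3 =>
      finX (a + b) T (cls (Nat.land r 65535)) (Nat.land (Nat.shiftRight r 16) 7) (mTw M)
        (mQw c M) X3 W2) = true := hr
  obtain ⟨X1, col1, lab1, f1, d1, a1, a2, a3⟩ := lgsX_sound hB nl h hK hr'
  obtain ⟨X2', col2, lab2, f2, d2, b1', b3', b4'⟩ := scrX_sound hB _ a1 a3
  obtain ⟨X2, b1, b2, b3, b4⟩ := rvX'_sound hB b1' b4'
  rw [b3'] at b3
  obtain ⟨c1, c2, c3, c4⟩ := finX_facts b4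
  rw [Nat.zero_add] at c2 c3
  have hm := hmv (Nat.shiftRight r 20)
  rw [← hM] at hm
  unfold mvOKw at hm
  rw [Bool.and_eq_true] at hm
  have hv := ckJ_sound hB hc b1 b2 c1 hm.1 hm.2
  set C := cls (Nat.land r 65535) with hC
  set s := Nat.land (Nat.shiftRight r 16) 7 with hs
  have hpc : parC C = 0 ∨ parC C = 1 := by
    have : parC C = Nat.shiftRight C 416 % 2 := by unfold parC; exact la1 _
    omega
  -- everything in powers of √6
  have h6 : (6 : ℝ) = Real.sqrt 6 ^ 2 := (Real.sq_sqrt (by norm_num)).symm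
  set G := (gve B col lab f (kf K)).re with hG
  have hval : cvB B c C = Real.sqrt 6 ^ (d1 + d2 + parC C) * G := by
    unfold cvB
    rw [← hv, b3, a2, pwp_eq hpc, pow_add, pow_add]; ring
  rw [hval, pwp_eq ha, pwp_eq hb]
  obtain ⟨d, hd⟩ : ∃ d, T = s + d := ⟨T - s, by omega⟩
  have hTs : T - s = d := by omega
  rw [hTs, hd]
  push_cast
  have hpar : (d1 + d2 + parC C) = 2 * s + (a + b) % 2 := by omega
  rw [hpar]
  have e6 : ∀ n : ℕ, (6 : ℝ) ^ n = Real.sqrt 6 ^ (2 * n) := fun n => by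
    rw [pow_mul, ← h6]
  have hmm : Real.sqrt 6 ^ a * Real.sqrt 6 ^ b = (mmb2 a b : ℝ) * Real.sqrt 6 ^ ((a + b) % 2) := by
    have m00 : mmb2 0 0 = 1 := rfl
    have m01 : mmb2 0 1 = 1 := rfl
    have m10 : mmb2 1 0 = 1 := rfl
    have m11 : mmb2 1 1 = 6 := rfl
    rcases ha with rfl | rfl <;> rcases hb with rfl | rfl
    · rw [m00]; simp
    · rw [m01]; simp
    · rw [m10]; simp
    · rw [m11]
      have h7 : Real.sqrt 6 * Real.sqrt 6 = 6 := Real.mul_self_sqrt (by norm_num)
      norm_num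
  calc (6 : ℝ) ^ (s + d) * (Real.sqrt 6 ^ a * Real.sqrt 6 ^ b * G)
      = (6 : ℝ) ^ d * (6 : ℝ) ^ s * ((mmb2 a b : ℝ) * Real.sqrt 6 ^ ((a + b) % 2) * G) := by
        rw [hmm, pow_add]; ring
    _ = _ := by
        rw [pow_add (Real.sqrt 6), ← e6 s]; ring


theorem prod_soundW [NeZero c] (hB : IsMUBs B) (hc : c ≤ 7) {T : TyD} {TT rw : ℕ}
    {cls mv : ℕ → ℕ} (hmv : ∀ i, mvOKw c (mv i) = true) {e : GD} {x y : PF}
    (hT : T.Ok c) (he : e.Ok c k l T) (hx : x.Ok c k l T)
    (hy : y.Ok c k l T) {r : ℕ}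
    (hr : rcdW c TT cls mv (Nat.add x.b y.b) (Nat.add k l) (mkK (eL e y (k + l)) x.pt k)
      (Nat.add x.F (img e y)) r = true) :
    (6 : ℝ) ^ TT * (sb x.b * sb y.b
        * (T.ty c).M B (x.dec c k l) ((sy c k l e).act (y.dec c k l)))
      = (mmu x.b y.b : ℝ) * (RcE TT rw).fm r * cvB B c (cls ((RcE TT rw).fi r)) := by
  have h1 := prod_rpr hT he hx hy hc ((sy c k l e).act (y.dec c k l)) (sy_col e _) (sy_net e _)
  have hcx := PF.clean hx
  have hcy := LSym_clean (sy_ok hT he) (PF.clean hy)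
  rw [Lty.M_eq (T.ty c) (TyD.ty_ok hT) hB _ _ hcx hcy, ← kf_mkK hT he hx hy]
  have hK : K8 (mkK (eL e y (k + l)) x.pt k) := by
    intro z hz
    have hx8 : ∀ p ∈ x.pt, p < 8 := fun p hp => (hx.ks p hp).1
    have hy8 := eL_lt hT he hy
    rcases mem_mkK _ _ _ _ hz with h | h
    · exact ⟨hy8 _ h.1, hx8 _ h.2⟩
    · exact ⟨hx8 _ h.1, hy8 _ h.2⟩
  have h2 := rcdW_sound hB hc hmv hx.b2 hy.b2 hK h1 hr
  rw [sb_pwp, sb_pwp, h2, mmu_mmb2 hx.b2 hy.b2]
  rfl

/-- products of a flag with a list of images; `E`: the records. -/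
def grpW (c TT : ℕ) (cls mv : ℕ → ℕ) (rw mk par kk kl F : ℕ) (xp : List ℕ)
    (IM : List (ℕ × List ℕ)) : ℕ → Bool :=
  List.rec (motive := fun _ => ℕ → Bool) (fun _ => true)
    (fun z _ ih E => Bool.rec (motive := fun _ => Bool) false (ih (Nat.shiftRight E rw))
      (rcdW c TT cls mv par kl (mkK z.2 xp kk) (Nat.add F z.1) (Nat.land E mk))) IM

theorem grpW_spec {c TT : ℕ} {cls mv : ℕ → ℕ} {w mk par kk kl F : ℕ} {xp : List ℕ}
    (hmk : mk = 2 ^ w - 1) : ∀ {IM : List (ℕ × List ℕ)} {E : ℕ},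
    grpW c TT cls mv w mk par kk kl F xp IM E = true → ∀ j < IM.length,
      rcdW c TT cls mv par kl (mkK (IM.getD j (0, [])).2 xp kk)
        (Nat.add F (IM.getD j (0, [])).1) (fld w E j) = true
  | [], E, _, j, hj => absurd hj (by simp)
  | z :: IM, E, h, j, hj => by
    have e1 : grpW c TT cls mv w mk par kk kl F xp (z :: IM) E
        = Bool.rec (motive := fun _ => Bool) false
          (grpW c TT cls mv w mk par kk kl F xp IM (Nat.shiftRight E w))
          (rcdW c TT cls mv par kl (mkK z.2 xp kk) (Nat.add F z.1) (Nat.land E mk)) := rfl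
    rw [e1, brc] at h
    rcases h1 : rcdW c TT cls mv par kl (mkK z.2 xp kk) (Nat.add F z.1) (Nat.land E mk) with _ | _
    · rw [h1, cond_false] at h; exact absurd h (by simp)
    rw [h1, cond_true] at h
    cases j with
    | zero =>
      have e2 : Nat.land E mk = E % 2 ^ w := by
        rw [hmk]; exact Nat.and_two_pow_sub_one_eq_mod E w
      rw [fld_zero, ← e2]
      exact h1
    | succ j =>
      rw [fld_succ]
      exact grpW_spec hmk h j (by simpa using hj)

/-- one column: flags `xs` with the images `IM`; `W`: shift, `W'`: mask of a group of records. -/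
def colRW (c TT : ℕ) (cls mv : ℕ → ℕ) (rw mk kk kl W W' b : ℕ) (IM : List (ℕ × List ℕ))
    (xs : List PF) : List ℕ → Bool :=
  List.rec (motive := fun _ => List ℕ → Bool) (fun _ => true)
    (fun x _ ih Es => List.rec (motive := fun _ => Bool) false
      (fun E Es' _ => Bool.rec (motive := fun _ => Bool) false (ih Es')
        (grpW c TT cls mv rw mk (Nat.add x.b b) kk kl x.F x.pt IM
          (Nat.land (Nat.shiftRight E W) W'))) Es) xs

theorem colRW_spec {c TT : ℕ} {cls mv : ℕ → ℕ} {w mk kk kl W W' b : ℕ}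
    {IM : List (ℕ × List ℕ)} : ∀ {xs : List PF} {Es : List ℕ},
    colRW c TT cls mv w mk kk kl W W' b IM xs Es = true → ∀ i < xs.length,
      grpW c TT cls mv w mk (Nat.add (xs.getD i pf0).b b) kk kl (xs.getD i pf0).F
        (xs.getD i pf0).pt IM (Nat.land (Nat.shiftRight (Es.getD i 0) W) W') = true
  | [], Es, _, i, hi => absurd hi (by simp)
  | x :: xs, [], h, i, hi => absurd h (by simp [colRW])
  | x :: xs, E :: Es, h, i, hi => by
    have e1 : colRW c TT cls mv w mk kk kl W W' b IM (x :: xs) (E :: Es)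
        = Bool.rec (motive := fun _ => Bool) false
          (colRW c TT cls mv w mk kk kl W W' b IM xs Es)
          (grpW c TT cls mv w mk (Nat.add x.b b) kk kl x.F x.pt IM
          (Nat.land (Nat.shiftRight E W) W')) := rfl
    rw [e1, brc] at h
    rcases h1 : grpW c TT cls mv w mk (Nat.add x.b b) kk kl x.F x.pt IM
          (Nat.land (Nat.shiftRight E W) W') with _ | _
    · rw [h1, cond_false] at h; exact absurd h (by simp)
    rw [h1, cond_true] at h
    cases i with
    | zero => exact h1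
    | succ i => exact colRW_spec h i (by simpa using hi)

/-- `cnt` columns from `l` on; `xs`, `Es`: flags and records from `l` on. -/
def colsW (c TT : ℕ) (cls mv : ℕ → ℕ) (rw n kk kl : ℕ) (es : List GD) (cnt : ℕ) :
    ℕ → List PF → List ℕ → Bool :=
  Nat.rec (motive := fun _ => ℕ → List PF → List ℕ → Bool) (fun _ _ _ => true)
    (fun _ ih l xs Es => List.rec (motive := fun _ => Bool) false
      (fun y xs' _ => List.rec (motive := fun _ => Bool) false
        (fun _ Es' _ => and (imF kl y es fun IM =>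
          force (Nat.mul (Nat.mul rw n) l) fun W =>
          force (Nat.sub (Nat.pow 2 (Nat.mul rw n)) 1) fun W' =>
          force (Nat.sub (Nat.pow 2 rw) 1) fun mk => force y.b fun b =>
          colRW c TT cls mv rw mk kk kl W W' b IM xs Es) (ih (Nat.succ l) xs' Es')) Es) xs) cnt

theorem colsW_spec {c TT : ℕ} {cls mv : ℕ → ℕ} {w n kk kl : ℕ} {es : List GD} :
    ∀ {cnt l : ℕ} {xs : List PF} {Es : List ℕ},
    colsW c TT cls mv w n kk kl es cnt l xs Es = true → ∀ d < cnt, ∀ i, d ≤ i → i < xs.length →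
      ∀ j (hj : j < es.length),
      rcdW c TT cls mv (Nat.add (xs.getD i pf0).b (xs.getD d pf0).b) kl
        (mkK (eL es[j] (xs.getD d pf0) kl) (xs.getD i pf0).pt kk)
        (Nat.add (xs.getD i pf0).F (img es[j] (xs.getD d pf0)))
        (fld w ((Es.getD i 0) >>> (w * n * (l + d)) % 2 ^ (w * n)) j) = true
  | 0, l, xs, Es, _, d, hd => absurd hd (by simp)
  | cnt + 1, l, [], Es, h, d, hd => absurd h (by simp [colsW])
  | cnt + 1, l, y :: xs, [], h, d, hd => absurd h (by simp [colsW])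
  | cnt + 1, l, y :: xs, E :: Es, h, d, hd => by
    intro i hdi hi j hj
    have e1 : colsW c TT cls mv w n kk kl es (cnt + 1) l (y :: xs) (E :: Es)
        = ((imF kl y es fun IM =>
          force (Nat.mul (Nat.mul w n) l) fun W =>
          force (Nat.sub (Nat.pow 2 (Nat.mul w n)) 1) fun W' =>
          force (Nat.sub (Nat.pow 2 w) 1) fun mk => force y.b fun b =>
          colRW c TT cls mv w mk kk kl W W' b IM (y :: xs) (E :: Es)) &&
          colsW c TT cls mv w n kk kl es cnt (Nat.succ l) xs Es) := rfl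
    rw [e1, Bool.and_eq_true] at h
    simp only [force_eq, imF_eq] at h
    cases d with
    | zero =>
      have h2 := colRW_spec h.1 i hi
      have hmk : Nat.sub (Nat.pow 2 w) 1 = 2 ^ w - 1 := rfl
      have h3 := grpW_spec hmk h2 j (by simpa using hj)
      have e2 : ((es.map fun e => (img e y, eL e y kl)).getD j (0, []))
          = (img es[j] y, eL es[j] y kl) := by
        simp [List.getD_eq_getElem?_getD, hj]
      rw [e2] at h3
      have e3 : Nat.land (Nat.shiftRight ((E :: Es).getD i 0) (Nat.mul (Nat.mul w n) l))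
          (Nat.sub (Nat.pow 2 (Nat.mul w n)) 1)
          = ((E :: Es).getD i 0) >>> (w * n * (l + 0)) % 2 ^ (w * n) := by
        rw [Nat.add_zero]
        exact Nat.and_two_pow_sub_one_eq_mod _ _
      rw [e3] at h3
      have e4 : (y :: xs).getD 0 pf0 = y := rfl
      rw [e4]
      dsimp only at h3
      exact h3
    | succ d =>
      cases i with
      | zero => exact absurd hdi (by simp)
      | succ i =>
        have h2 := colsW_spec h.2 d (by omega) i (by omega) (by simpa using hi) j hj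
        have e2 : Nat.succ l + d = l + (d + 1) := by omega
        rw [e2] at h2
        exact h2

/-- `cnt` columns from `l` on. -/
def colsAtW (c TT : ℕ) (cls mv : ℕ → ℕ) (rw n kk kl : ℕ) (es : List GD) (XL : List PF)
    (EL : List ℕ) (l cnt : ℕ) : Bool :=
  colsW c TT cls mv rw n kk kl es cnt l (drp l XL) (drp l EL)

theorem colsAtW_spec {c TT : ℕ} {cls mv : ℕ → ℕ} {w n kk kl : ℕ} {es : List GD}
    {XL : List PF} {EL : List ℕ} {l cnt : ℕ}
    (h : colsAtW c TT cls mv w n kk kl es XL EL l cnt = true) (l' : ℕ) (h1 : l ≤ l')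
    (h2 : l' < l + cnt) (i : ℕ) (h3 : l' ≤ i) (h4 : i < XL.length) (j : ℕ)
    (hj : j < es.length) :
    rcdW c TT cls mv (Nat.add (XL.getD i pf0).b (XL.getD l' pf0).b) kl
      (mkK (eL es[j] (XL.getD l' pf0) kl) (XL.getD i pf0).pt kk)
      (Nat.add (XL.getD i pf0).F (img es[j] (XL.getD l' pf0)))
      (fld w ((EL.getD i 0) >>> (w * n * l') % 2 ^ (w * n)) j) = true := by
  unfold colsAtW at h
  rw [drp_eq, drp_eq] at h
  have h5 := colsW_spec h (l' - l) (by omega) (i - l) (by omega)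
    (by rw [List.length_drop]; omega) j hj
  rw [getD_drop, getD_drop, getD_drop] at h5
  have e1 : l + (i - l) = i := by omega
  have e2 : l + (l' - l) = l' := by omega
  rw [e1, e2] at h5
  exact h5

/-- the columns `l ≤ l' < r` are checked. -/
def CW (c k l : ℕ) (D : ED) (cls mv : ℕ → ℕ) (a b : ℕ) : Prop :=
  ∀ l', a ≤ l' → l' < b → ∃ l0 cnt, l0 ≤ l' ∧ l' < l0 + cnt ∧
    colsAtW c D.TT cls mv D.rw D.G.n k (k + l) D.G.gl D.XL D.EL l0 cnt = true

theorem CW.ck {D : ED} {cls mv : ℕ → ℕ} (a cnt : ℕ)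
    (h : colsAtW c D.TT cls mv D.rw D.G.n k (Nat.add k l) D.G.gl D.XL D.EL a cnt = true) :
    CW c k l D cls mv a (Nat.add a cnt) :=
  fun _ h1 h2 => ⟨a, cnt, h1, h2, h⟩

theorem CW.trans {D : ED} {cls mv : ℕ → ℕ} {a b d : ℕ} (h : CW c k l D cls mv a b)
    (h' : CW c k l D cls mv b d) : CW c k l D cls mv a d := by
  intro l' h1 h2
  rcases Nat.lt_or_ge l' b with h3 | h3
  · exact h l' h1 h3
  · exact h' l' h3 h2

/-- **The records give the values of all products.** -/
theorem sokW [NeZero c] (hB : IsMUBs B) (hc : c ≤ 7) {D : ED} {cls mv : ℕ → ℕ}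
    (hmv : ∀ i, mvOKw c (mv i) = true) (hck : D.ck c k l = true)
    {nk : ℕ} (hnk : D.XL.length = nk) (hR : CW c k l D cls mv 0 nk) :
    SOk D.G.n nk (D.G.act c k l) D.G.nu ((D.T.ty c).M B)
      (fun i => (D.XL.getD i pf0).dec c k l) ((6 : ℝ) ^ D.TT) (RcE D.TT D.rw)
      (fun i => cvB B c (cls i)) D.BP D.EL := by
  obtain ⟨hT', hG, hx, hn, hb⟩ := ED.ck_spec hck
  have hT := TyD.ok_spec hT'
  have he := (GG.ck_spec hG).2.1
  have key : ∀ i < nk, ∀ l' ≤ i, ∀ j < D.G.n,
      (6 : ℝ) ^ D.TT * (sb (bP D.BP i) * sb (bP D.BP l') * (D.T.ty c).M B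
        ((D.XL.getD i pf0).dec c k l) (D.G.act c k l j ((D.XL.getD l' pf0).dec c k l)))
      = (mmu (bP D.BP i) (bP D.BP l') : ℝ) * (RcE D.TT D.rw).fm
          (fld D.rw ((D.EL.getD i 0) >>> (D.rw * D.G.n * l') % 2 ^ (D.rw * D.G.n)) j)
        * cvB B c (cls ((RcE D.TT D.rw).fi
          (fld D.rw ((D.EL.getD i 0) >>> (D.rw * D.G.n * l') % 2 ^ (D.rw * D.G.n)) j))) := by
    intro i hi l' hl' j hj
    obtain ⟨l0, cnt, h1, h2, h3⟩ := hR l' (by omega) (by omega)
    have hj' : j < D.G.gl.length := by rw [hn]; exact hj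
    have h4 := colsAtW_spec h3 l' h1 h2 i hl' (by omega) j hj'
    have e1 : D.G.gl[j] = D.G.g j := by
      rw [GG.g_eq]; simp [List.getD_eq_getElem?_getD, hj']
    rw [e1] at h4
    rw [← hb i (by omega), ← hb l' (by omega)]
    exact prod_soundW hB hc hmv hT (he j hj) (hx i (by omega)) (hx l' (by omega)) h4
  refine lty_sok hB hT' hG (by positivity) ?_ ?_
  · intro i hi l' hl' j hj
    exact key i hi l' hl'.le j hj
  · intro i hi j hj
    have h1 := key i hi i le_rfl j hj
    have e1 : fld D.rw ((D.EL.getD i 0) >>> (D.rw * D.G.n * i) % 2 ^ (D.rw * D.G.n)) j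
        = fld (RcE D.TT D.rw).rw (eKK (RcE D.TT D.rw) D.G.n (D.EL.getD i 0) i) j := by
      have e2 : (RcE D.TT D.rw).rw = D.rw := rfl
      unfold eKK
      rw [e2]
      generalize (D.EL.getD i 0) >>> (D.rw * D.G.n * i) = E
      show ((E % 2 ^ (D.rw * D.G.n)) >>> (D.rw * j)) % 2 ^ D.rw
        = (E >>> (D.rw * j)) % 2 ^ D.rw
      apply Nat.eq_of_testBit_eq
      intro b
      rw [Nat.testBit_mod_two_pow, Nat.testBit_mod_two_pow, Nat.testBit_shiftRight,
        Nat.testBit_shiftRight, Nat.testBit_mod_two_pow]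
      by_cases hb' : b < D.rw
      · have : D.rw * j + b < D.rw * D.G.n := by
          have h5 : D.rw * (j + 1) ≤ D.rw * D.G.n := Nat.mul_le_mul_left _ hj
          rw [Nat.mul_succ] at h5
          omega
        simp [hb', this]
      · simp [hb']
    rw [← e1]
    exact h1


end Vale.Agent.P355.H41.F1
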